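import Vale.Agent.P090.Words

/-! Components of the coarse fibre product project into trees. -/

namespace Vale.Agent.P090

variable {X Q S : Type*}

def labs (τ : Fin 3 → X → X) (lab : Fin 3 → X → S) : X → List (Fin 3) → List S
  | _, [] => []
  | x, c :: p => lab c x :: labs τ lab (τ c x) p

structure Sys (τ : Fin 3 → X → X) (lab : Fin 3 → X → S) (σ : S → Q → Q) (β : X → Q) (D : ℕ) :
    Prop where
  tt : ∀ c x, τ c (τ c x) = x
  ss : ∀ s q, σ s (σ s q) = q
  labτ : ∀ c x, lab c (τ c x) = lab c x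
  labinj : ∀ c c' x x', lab c x = lab c' x' → c = c'
  βτ : ∀ c x, β (τ c x) = σ (lab c x) (β x)
  inj : Inj σ D

variable {τ : Fin 3 → X → X} {lab : Fin 3 → X → S} {σ : S → Q → Q} {β : X → Q} {D : ℕ}

lemma length_labs (x : X) (p : List (Fin 3)) : (labs τ lab x p).length = p.length := by
  induction p generalizing x with
  | nil => rfl
  | cons c p ih => simp [labs, ih]

lemma labs_take (x : X) (p : List (Fin 3)) (n : ℕ) :
    (labs τ lab x p).take n = labs τ lab x (p.take n) := by
  induction p generalizing x n with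
  | nil => simp [labs]
  | cons c p ih =>
    cases n with
    | zero => simp [labs]
    | succ n => simp [labs, ih]

lemma labs_drop (x : X) (p : List (Fin 3)) (n : ℕ) :
    (labs τ lab x p).drop n = labs τ lab (walk τ x (p.take n)) (p.drop n) := by
  induction p generalizing x n with
  | nil => simp [labs]
  | cons c p ih =>
    cases n with
    | zero => simp [labs]
    | succ n => simp [labs, ih]

lemma Sys.labs_inj (H : Sys τ lab σ β D) {x y : X} {p q : List (Fin 3)}
    (h : labs τ lab x p = labs τ lab y q) : p = q := by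
  induction p generalizing x y q with
  | nil =>
    cases q with
    | nil => rfl
    | cons c q => simp [labs] at h
  | cons c p ih =>
    cases q with
    | nil => simp [labs] at h
    | cons c' q =>
      simp only [labs, List.cons.injEq] at h
      rw [H.labinj _ _ _ _ h.1, ih h.2]

lemma Sys.labs_head (H : Sys τ lab σ β D) {x y : X} {p : List (Fin 3)} {c : Fin 3}
    (h : p.head? ≠ some c) : (labs τ lab x p).head? ≠ some (lab c y) := by
  cases p with
  | nil => simp [labs]
  | cons c' p =>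
    simp only [labs, List.head?_cons, ne_eq, Option.some.injEq] at h ⊢
    exact fun e => h (H.labinj _ _ _ _ e)

lemma Sys.red_labs (H : Sys τ lab σ β D) (x : X) {p : List (Fin 3)} (hp : Red p) :
    Red (labs τ lab x p) := by
  induction p generalizing x with
  | nil => exact red_nil
  | cons c p ih =>
    obtain ⟨h1, h2⟩ := red_cons.1 hp
    exact red_cons.2 ⟨H.labs_head h1, ih _ h2⟩

lemma Sys.labs_push [DecidableEq S] (H : Sys τ lab σ β D) (x : X) (c : Fin 3) (p : List (Fin 3)) :
    labs τ lab (τ c x) (push c p) = push (lab c x) (labs τ lab x p) := by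
  rcases push_cases c p with ⟨h1, h2⟩ | h1
  · rw [h2, push_of_head (H.labs_head h1)]
    simp [labs, H.tt, H.labτ]
  · conv_rhs => rw [h1]
    simp [labs]

/-- truncated word distance -/
noncomputable def dq (σ : S → Q → Q) (D : ℕ) (t t' : Q) : ℕ :=
  sInf {n | n = D ∨ ∃ g : List S, g.length = n ∧ walk σ t g = t'}

lemma dq_le (t t' : Q) : dq σ D t t' ≤ D := Nat.sInf_le (Or.inl rfl)

lemma dq_le_of {t t' : Q} {g : List S} (h : walk σ t g = t') : dq σ D t t' ≤ g.length :=
  Nat.sInf_le (Or.inr ⟨g, rfl, h⟩)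

lemma dq_self (t : Q) : dq σ D t t = 0 :=
  Nat.le_zero.1 (dq_le_of (g := []) rfl)

lemma dq_spec (t t' : Q) :
    dq σ D t t' = D ∨ ∃ g : List S, g.length = dq σ D t t' ∧ walk σ t g = t' :=
  Nat.sInf_mem (s := {n | n = D ∨ ∃ g : List S, g.length = n ∧ walk σ t g = t'}) ⟨D, Or.inl rfl⟩

lemma dq_left (hs : ∀ s q, σ s (σ s q) = q) (s : S) (t t' : Q) :
    dq σ D (σ s t) t' ≤ dq σ D t t' + 1 := by
  rcases dq_spec (σ := σ) (D := D) t t' with h | ⟨g, hg, h⟩
  · have := dq_le (σ := σ) (D := D) (σ s t) t'; omega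
  · have := dq_le_of (σ := σ) (D := D) (t := σ s t) (t' := t') (g := s :: g) (by simp [hs, h])
    simp at this; omega

lemma dq_right (s : S) (t t' : Q) : dq σ D t (σ s t') ≤ dq σ D t t' + 1 := by
  rcases dq_spec (σ := σ) (D := D) t t' with h | ⟨g, hg, h⟩
  · have := dq_le (σ := σ) (D := D) t (σ s t'); omega
  · have := dq_le_of (σ := σ) (D := D) (t := t) (t' := σ s t') (g := g ++ [s])
      (by simp [walk_append, h])
    simp at this; omega

lemma dq_red [DecidableEq S] (hs : ∀ s q, σ s (σ s q) = q) {t t' : Q} (h : dq σ D t t' < D) :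
    ∃ g : List S, Red g ∧ g.length < D ∧ walk σ t g = t' := by
  rcases dq_spec (σ := σ) (D := D) t t' with h' | ⟨g, hg, h'⟩
  · omega
  · refine ⟨act g [], red_nil.act g, ?_, by rw [walk_act hs, h']⟩
    have := length_act_le g ([] : List S)
    simp at this; omega

def Zs (σ : S → Q → Q) (β : X → Q) (D : ℕ) (G A : Set X) (z : X × X) : Prop :=
  z.1 ∈ G ∧ z.2 ∈ A ∧ dq σ D (β z.1) (β z.2) < D

def Adj (τ : Fin 3 → X → X) (σ : S → Q → Q) (β : X → Q) (D : ℕ) (G A : Set X) (z z' : X × X) :
    Prop :=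
  Zs σ β D G A z ∧ Zs σ β D G A z' ∧ ∃ c, z' = (τ c z.1, z.2) ∨ z' = (z.1, τ c z.2)

lemma Sys.adj_symm (H : Sys τ lab σ β D) {G A : Set X} {z z' : X × X}
    (h : Adj τ σ β D G A z z') : Adj τ σ β D G A z' z := by
  obtain ⟨h1, h2, c, h | h⟩ := h
  · exact ⟨h2, h1, c, Or.inl (by subst h; simp [H.tt])⟩
  · exact ⟨h2, h1, c, Or.inr (by subst h; simp [H.tt])⟩

lemma Sys.invariant [DecidableEq S] (H : Sys τ lab σ β D) {G A : Set X} {z0 : X × X}
    {g0 : List S} (hz0 : z0.1 ∈ G) (hg0 : Red g0) (hl0 : g0.length < D)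
    (hw0 : walk σ (β z0.1) g0 = β z0.2) {z : X × X}
    (h : Relation.ReflTransGen (Adj τ σ β D G A) z0 z) :
    ∃ (p q : List (Fin 3)) (g : List S), Red p ∧ Red q ∧ Red g ∧ g.length < D ∧
      walk τ z.1 p = z0.1 ∧ (∀ i, walk τ z.1 (p.take i) ∈ G) ∧ walk σ (β z.1) g = β z.2 ∧
      act g (labs τ lab z.2 q) = act (labs τ lab z.1 p) g0 := by
  induction h with
  | refl =>
    refine ⟨[], [], g0, red_nil, red_nil, hg0, hl0, rfl, fun i => by simpa using hz0, hw0, ?_⟩
    simp only [labs, act_nil]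
    clear hw0 hl0
    induction g0 with
    | nil => rfl
    | cons s g ih =>
      obtain ⟨h1, h2⟩ := red_cons.1 hg0
      rw [act_cons, ih h2, push_of_head h1]
  | @tail z z' _ hadj ih =>
    obtain ⟨p, q, g, hp, hq, hg, hgl, hwp, hG, hwg, hact⟩ := ih
    obtain ⟨_, hz', c, e | e⟩ := hadj
    · obtain ⟨g', hg', hgl', hwg'⟩ := dq_red H.ss hz'.2.2
      have hz1 := hz'.1
      subst e
      simp only at hwg' hz1 ⊢
      have eg : g' = push (lab c z.1) g := by
        apply H.inj (β (τ c z.1)) _ _ hg' (hg.push _) hgl'.le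
        · have := length_push_le (lab c z.1) g; omega
        · rw [hwg', walk_push H.ss, H.βτ, H.ss, hwg]
      refine ⟨push c p, q, g', hp.push c, hq, hg', hgl', ?_, ?_, hwg', ?_⟩
      · rw [walk_push H.tt, H.tt, hwp]
      · intro i
        rcases push_cases c p with ⟨_, h2⟩ | h1
        · rw [h2]
          cases i with
          | zero => simpa using hz1
          | succ i => simpa [H.tt] using hG i
        · have := hG (i + 1)
          rw [h1] at this
          simpa using this
      · rw [eg, act_push (H.red_labs _ hq), hact, H.labs_push, act_push hg0]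
    · obtain ⟨g', hg', hgl', hwg'⟩ := dq_red H.ss hz'.2.2
      subst e
      simp only at hwg' ⊢
      have eg : g' = act (g ++ [lab c z.2]) [] := by
        apply H.inj (β z.1) _ _ hg' (red_nil.act _) hgl'.le
        · have := length_act_le (g ++ [lab c z.2]) []
          simp at this; omega
        · rw [hwg', walk_act H.ss, walk_append, hwg, H.βτ]; rfl
      refine ⟨p, push c q, g', hp, hq.push c, hg', hgl', hwp, hG, hwg', ?_⟩
      rw [eg, act_act_nil (H.red_labs _ (hq.push c)), H.labs_push, act_append, act_cons, act_nil,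
        push_push (H.red_labs _ hq), hact]

lemma walk_mem {A : Set X} (hA : ∀ c x, x ∈ A → τ c x ∈ A) {x : X} (hx : x ∈ A)
    (p : List (Fin 3)) : walk τ x p ∈ A := by
  induction p generalizing x with
  | nil => exact hx
  | cons c p ih => exact ih (hA c x hx)

theorem Sys.components (H : Sys τ lab σ β D) {V G A : Set X} {r L : ℕ}
    (hA : ∀ c x, x ∈ A → τ c x ∈ A) (hV : ∀ c x, x ∈ V → τ c x ∈ V) (hGV : G ⊆ V)
    (hinj : ∀ v ∈ V, ∀ p q : List (Fin 3), Red p → Red q → p.length ≤ r → q.length ≤ r →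
      walk τ v p = walk τ v q → p = q)
    (hgood : ∀ v ∈ G, ∀ a ∈ A, ∀ p : List (Fin 3), Red p → p.length = L →
      labs τ lab v p ≠ labs τ lab a p)
    (hr : L + 2 * D ≤ r) :
    ∃ cls : X × X → Set (X × X),
      (∀ z z', Adj τ σ β D G A z z' → cls z = cls z') ∧
      ∀ z0, Zs σ β D G A z0 → ∃ ρ : X → ℕ, ∀ z, Zs σ β D G A z → cls z = cls z0 →
        ∃ c0, ∀ c, c ≠ c0 → ρ z.1 < ρ (τ c z.1) := by
  classical
  refine ⟨fun z => {z' | Relation.ReflTransGen (Adj τ σ β D G A) z z'}, ?_, ?_⟩
  · intro z z' h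
    ext y
    exact ⟨fun hy => Relation.ReflTransGen.head (H.adj_symm h) hy,
      fun hy => Relation.ReflTransGen.head h hy⟩
  · intro z0 hz0
    obtain ⟨g0, hg0, hl0, hw0⟩ := dq_red H.ss hz0.2.2
    let ρ : X → ℕ := fun v =>
      if h : ∃ p : List (Fin 3), Red p ∧ p.length ≤ r ∧ walk τ v p = z0.1 then h.choose.length
      else 0
    have hρ : ∀ v ∈ V, ∀ p : List (Fin 3), Red p → p.length ≤ r → walk τ v p = z0.1 →
        ρ v = p.length := by
      intro v hv p hp hpl hw
      have h : ∃ p : List (Fin 3), Red p ∧ p.length ≤ r ∧ walk τ v p = z0.1 := ⟨p, hp, hpl, hw⟩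
      simp only [ρ, dif_pos h]
      obtain ⟨h1, h2, h3⟩ := h.choose_spec
      rw [hinj v hv _ _ h1 hp h2 hpl (h3.trans hw.symm)]
    refine ⟨ρ, fun z hz hc => ?_⟩
    have hzz : Relation.ReflTransGen (Adj τ σ β D G A) z0 z := by
      have : z ∈ {z' | Relation.ReflTransGen (Adj τ σ β D G A) z z'} := Relation.ReflTransGen.refl
      rw [show {z' | Relation.ReflTransGen (Adj τ σ β D G A) z z'} = _ from hc] at this
      exact this
    obtain ⟨p, q, g, hp, hq, hg, hgl, hwp, hG, hwg, hact⟩ := H.invariant hz0.1 hg0 hl0 hw0 hzz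
    have hlen : p.length < L + 2 * D := by
      by_contra hcon
      obtain ⟨k, hk⟩ := overlap (L := L) (H.red_labs z.1 hp) hgl.le hl0.le
        (by rw [length_labs]; omega) hact
      rw [labs_drop, labs_take, labs_drop, labs_take] at hk
      have e := H.labs_inj hk
      rw [← e] at hk
      refine hgood _ (hG D) _ (walk_mem hA hz.2.1 _) _ ((hp.drop D).take L) ?_ hk
      simp; omega
    have hzV : z.1 ∈ V := hGV hz.1
    refine ⟨p.head?.getD 0, fun c hc => ?_⟩
    have hh : p.head? ≠ some c := by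
      intro h; rw [h] at hc; exact hc rfl
    rw [hρ z.1 hzV p hp (by omega) hwp,
      hρ (τ c z.1) (hV c _ hzV) (c :: p) (red_cons.2 ⟨hh, hp⟩) (by simp; omega)
        (by simp [H.tt, hwp])]
    simp

end Vale.Agent.P090
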