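import Mathlib

/-! Lipschitz-free spaces and the bounded approximation property. -/

namespace Vale.Agent.P090

variable {M : Type*} [MetricSpace M]

/-- Real Lipschitz functions on `M` vanishing at the base point `o`, as a vector space. -/
def lipSub (o : M) : Submodule ℝ (M → ℝ) where
  carrier := {f | (∃ K : ℝ, 0 ≤ K ∧ ∀ x y, |f x - f y| ≤ K * dist x y) ∧ f o = 0}
  add_mem' := by
    rintro f g ⟨⟨K, hK, hf⟩, hf0⟩ ⟨⟨L, hL, hg⟩, hg0⟩
    refine ⟨⟨K + L, add_nonneg hK hL, fun x y => ?_⟩, by simp [hf0, hg0]⟩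
    have h := abs_add_le (f x - f y) (g x - g y)
    have e : (f + g) x - (f + g) y = (f x - f y) + (g x - g y) := by simp only [Pi.add_apply]; ring
    rw [e]; linarith [hf x y, hg x y]
  zero_mem' := ⟨⟨0, le_rfl, fun x y => by simp⟩, rfl⟩
  smul_mem' := by
    rintro c f ⟨⟨K, hK, hf⟩, hf0⟩
    refine ⟨⟨|c| * K, mul_nonneg (abs_nonneg c) hK, fun x y => ?_⟩, by simp [hf0]⟩
    simp only [Pi.smul_apply, smul_eq_mul]
    rw [← mul_sub, abs_mul, mul_assoc]
    exact mul_le_mul_of_nonneg_left (hf x y) (abs_nonneg c)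

/-- The space `Lip_0(M)`; it is normed below by the Lipschitz constant. -/
def Lip0 (o : M) : Type _ := ↥(lipSub o)

instance (o : M) : AddCommGroup (Lip0 o) := (lipSub o).addCommGroup

noncomputable instance (o : M) : Module ℝ (Lip0 o) := (lipSub o).module

/-- The underlying function of an element of `Lip_0(M)`. -/
def Lip0.fn {o : M} (f : Lip0 o) : M → ℝ := Subtype.val (p := fun g => g ∈ lipSub o) f

/-- The Lipschitz constant: the least `K ≥ 0` with `|f x - f y| ≤ K d(x,y)` for all `x, y`. -/
noncomputable def lipConst (f : M → ℝ) : ℝ :=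
  sInf {K : ℝ | 0 ≤ K ∧ ∀ x y, |f x - f y| ≤ K * dist x y}

lemma lipConst_le {f : M → ℝ} {K : ℝ} (hK : 0 ≤ K) (h : ∀ x y, |f x - f y| ≤ K * dist x y) :
    lipConst f ≤ K :=
  csInf_le ⟨0, fun _ hL => hL.1⟩ ⟨hK, h⟩

lemma lipConst_nonneg (f : M → ℝ) : 0 ≤ lipConst f := Real.sInf_nonneg fun _ hL => hL.1

lemma Lip0.le {o : M} (f : Lip0 o) (x y : M) : |f.fn x - f.fn y| ≤ lipConst f.fn * dist x y := by
  rcases eq_or_ne x y with rfl | hxy
  · simp
  · have hd : 0 < dist x y := dist_pos.2 hxy
    rw [← div_le_iff₀ hd]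
    exact le_csInf (Subtype.property (p := fun g => g ∈ lipSub o) f).1
      fun K hK => (div_le_iff₀ hd).2 (hK.2 x y)

noncomputable instance (o : M) : NormedAddCommGroup (Lip0 o) :=
  AddGroupNorm.toNormedAddCommGroup
    { toFun := fun f => lipConst f.fn
      map_zero' := le_antisymm (lipConst_le le_rfl fun x y => by
        change |(0 : ℝ) - 0| ≤ _
        simp) (lipConst_nonneg _)
      add_le' := fun f g => lipConst_le (add_nonneg (lipConst_nonneg _) (lipConst_nonneg _))
        fun x y => by
          have h := abs_add_le (f.fn x - f.fn y) (g.fn x - g.fn y)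
          have e : (f + g).fn x - (f + g).fn y = (f.fn x - f.fn y) + (g.fn x - g.fn y) := by
            change (f.fn x + g.fn x) - (f.fn y + g.fn y) = _
            ring
          rw [e]; linarith [f.le x y, g.le x y]
      neg' := fun f => by
        unfold lipConst
        congr 1
        ext K
        have e : ∀ x y, |(-f).fn x - (-f).fn y| = |f.fn x - f.fn y| := fun x y => by
          change |(-f.fn x) - (-f.fn y)| = _
          rw [← neg_sub', abs_neg]
        simp only [Set.mem_ofPred_eq, e]
      eq_zero_of_map_eq_zero' := fun f hf => by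
        apply Subtype.ext
        funext x
        have h := f.le x o
        have h0 : f.fn o = 0 := (Subtype.property (p := fun g => g ∈ lipSub o) f).2
        rw [show lipConst f.fn = 0 from hf, zero_mul, h0, sub_zero] at h
        exact abs_nonpos_iff.1 h }

noncomputable instance (o : M) : NormedSpace ℝ (Lip0 o) where
  norm_smul_le c f := lipConst_le (mul_nonneg (norm_nonneg c) (lipConst_nonneg _)) fun x y => by
    change |c * f.fn x - c * f.fn y| ≤ |c| * lipConst f.fn * dist x y
    rw [← mul_sub, abs_mul, mul_assoc]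
    exact mul_le_mul_of_nonneg_left (f.le x y) (abs_nonneg c)

/-- The evaluation functional `δ_x` on `Lip_0(M)`. -/
noncomputable def delta (o x : M) : StrongDual ℝ (Lip0 o) :=
  LinearMap.mkContinuous
    { toFun := fun f => f.fn x
      map_add' := fun _ _ => rfl
      map_smul' := fun _ _ => rfl } (dist x o) fun f => by
    have h := f.le x o
    have h0 : f.fn o = 0 := (Subtype.property (p := fun g => g ∈ lipSub o) f).2
    rw [h0, sub_zero, mul_comm] at h
    exact h

/-- The norm closed linear span of the `δ_x` in `Lip_0(M)^*`. -/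
noncomputable def freeSub (o : M) : Submodule ℝ (StrongDual ℝ (Lip0 o)) :=
  (Submodule.span ℝ (Set.range (delta o))).topologicalClosure

/-- The Lipschitz-free space, with the norm it inherits from `Lip_0(M)^*`. -/
def FreeSpace (o : M) : Type _ := ↥(freeSub o)

noncomputable instance (o : M) : NormedAddCommGroup (FreeSpace o) :=
  (freeSub o).normedAddCommGroup

noncomputable instance (o : M) : NormedSpace ℝ (FreeSpace o) :=
  (freeSub o).normedSpace

/-- The `lam`-bounded approximation property. -/
def HasLamBAP (X : Type*) [NormedAddCommGroup X] [NormedSpace ℝ X] (lam : ℝ) : Prop :=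
  ∀ C : Set X, IsCompact C → ∀ ε : ℝ, 0 < ε → ∃ T : X →L[ℝ] X,
    FiniteDimensional ℝ (LinearMap.range (T : X →ₗ[ℝ] X)) ∧ ‖T‖ ≤ lam ∧ ∀ u ∈ C, ‖T u - u‖ < ε

/-- The bounded approximation property. -/
def HasBAP (X : Type*) [NormedAddCommGroup X] [NormedSpace ℝ X] : Prop :=
  ∃ lam : ℝ, 1 ≤ lam ∧ HasLamBAP X lam

/-- `inf {d(x,y) : x ≠ y} > 0`. -/
def UniformlyDiscrete (M : Type*) [MetricSpace M] : Prop :=
  ∃ θ : ℝ, 0 < θ ∧ ∀ x y : M, x ≠ y → θ ≤ dist x y

end Vale.Agent.P090
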