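import Vale.Agent.P090.Defs

/-! General facts on Lipschitz-free spaces. -/

namespace Vale.Agent.P090

variable {M : Type*} [MetricSpace M]

lemma Lip0.norm_def {o : M} (f : Lip0 o) : ‖f‖ = lipConst f.fn := rfl

lemma delta_apply (o x : M) (f : Lip0 o) : delta o x f = f.fn x := rfl

lemma Lip0.ext' {o : M} {f g : Lip0 o} (h : ∀ x, delta o x f = delta o x g) : f = g :=
  Subtype.ext (funext h)

noncomputable def dl (o x : M) : FreeSpace o :=
  ⟨delta o x, Submodule.le_topologicalClosure _ (Submodule.subset_span ⟨x, rfl⟩)⟩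

lemma norm_dl_sub (o x y : M) : ‖dl o x - dl o y‖ ≤ dist x y := by
  change ‖delta o x - delta o y‖ ≤ _
  refine ContinuousLinearMap.opNorm_le_bound _ dist_nonneg fun f => ?_
  rw [mul_comm]
  exact f.le x y

lemma dl_base (o : M) : dl o o = 0 := by
  apply Subtype.ext
  ext f
  exact (Subtype.property (p := fun g => g ∈ lipSub o) f).2

lemma abs_pair_le {o : M} (u : FreeSpace o) (f : Lip0 o) : |u.1 f| ≤ ‖u‖ * ‖f‖ :=
  u.1.le_opNorm f

lemma exists_support {o : M} (u : FreeSpace o) {η : ℝ} (hη : 0 < η) :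
    ∃ A : Finset M, ∀ f : Lip0 o, (∀ a ∈ A, f.fn a = 0) → |u.1 f| ≤ η * ‖f‖ := by
  classical
  have hu : u.1 ∈ closure (Submodule.span ℝ (Set.range (delta o)) : Set _) := u.2
  obtain ⟨w, hw, hd⟩ := Metric.mem_closure_iff.1 hu η hη
  have key : ∃ A : Finset M, ∀ f : Lip0 o, (∀ a ∈ A, f.fn a = 0) → w f = 0 := by
    clear hd
    induction hw using Submodule.span_induction with
    | mem x hx =>
      obtain ⟨x, rfl⟩ := hx
      exact ⟨{x}, fun f hf => hf x (Finset.mem_singleton_self x)⟩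
    | zero => exact ⟨∅, fun _ _ => rfl⟩
    | add x y _ _ hx hy =>
      obtain ⟨A, hA⟩ := hx
      obtain ⟨B, hB⟩ := hy
      refine ⟨A ∪ B, fun f hf => ?_⟩
      rw [add_apply, hA f fun a ha => hf a (Finset.mem_union_left _ ha),
        hB f fun a ha => hf a (Finset.mem_union_right _ ha), add_zero]
    | smul c x _ hx =>
      obtain ⟨A, hA⟩ := hx
      exact ⟨A, fun f hf => by rw [smul_apply, hA f hf, smul_zero]⟩
  obtain ⟨A, hA⟩ := key
  refine ⟨A, fun f hf => ?_⟩
  have e : u.1 f = (u.1 - w) f := by rw [sub_apply, hA f hf, sub_zero]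
  rw [e]
  refine ((u.1 - w).le_opNorm f).trans (mul_le_mul_of_nonneg_right ?_ (norm_nonneg _))
  rw [← dist_eq_norm]; exact hd.le

lemma exists_support_compact {o : M} {K : Set (FreeSpace o)} (hK : IsCompact K) {η : ℝ}
    (hη : 0 < η) :
    ∃ A : Finset M, ∀ u ∈ K, ∀ f : Lip0 o, (∀ a ∈ A, f.fn a = 0) → |u.1 f| ≤ 2 * η * ‖f‖ := by
  classical
  obtain ⟨t, ht, hcov⟩ := Metric.totallyBounded_iff.1 hK.totallyBounded η hη
  choose A hA using fun u : FreeSpace o => exists_support u hη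
  refine ⟨ht.toFinset.biUnion A, fun u hu f hf => ?_⟩
  obtain ⟨y, hy, hd⟩ := Set.mem_iUnion₂.1 (hcov hu)
  have h1 := hA y f fun a ha => hf a (Finset.mem_biUnion.2 ⟨y, ht.mem_toFinset.2 hy, ha⟩)
  have h2 := abs_pair_le (u - y) f
  have h3 : ‖u - y‖ * ‖f‖ ≤ η * ‖f‖ := by
    refine mul_le_mul_of_nonneg_right ?_ (norm_nonneg _)
    have h4 : dist u.1 y.1 < η := hd
    rw [dist_eq_norm] at h4
    exact h4.le
  have e : u.1 f = (u - y).1 f + y.1 f := by
    change _ = (u.1 f - y.1 f) + y.1 f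
    ring
  rw [e]
  linarith [abs_add_le ((u - y).1 f) (y.1 f)]

lemma compact_of_finiteRank {X : Type*} [NormedAddCommGroup X] [NormedSpace ℝ X] (T : X →L[ℝ] X)
    (h : FiniteDimensional ℝ (LinearMap.range (T : X →ₗ[ℝ] X))) : IsCompactOperator T := by
  have h1 : IsCompactOperator (T.codRestrict (LinearMap.range (T : X →ₗ[ℝ] X))
      fun x => LinearMap.mem_range_self _ x) :=
    isCompactOperator_of_locallyCompactSpace_dom _
  exact h1.continuous_comp continuous_subtype_val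

end Vale.Agent.P090
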