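import Vale.Agent.P090.Comp

/-! The isoperimetric obstruction. -/

namespace Vale.Agent.P090

open Finset

variable {X Q S : Type*}
variable {τ : Fin 3 → X → X} {lab : Fin 3 → X → S} {σ : S → Q → Q} {β : X → Q} {D : ℕ}

lemma sum_invol (hτ : ∀ c x, τ c (τ c x) = x) {V : Finset X} (hV : ∀ c x, x ∈ V → τ c x ∈ V)
    (c : Fin 3) (f : X → ℝ) : ∑ v ∈ V, f (τ c v) = ∑ v ∈ V, f v :=
  Finset.sum_nbij' (τ c) (τ c) (fun x hx => hV c x hx) (fun x hx => hV c x hx)
    (fun x _ => hτ c x) (fun x _ => hτ c x) (fun _ _ => rfl)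

lemma iso (hτ : ∀ c x, τ c (τ c x) = x) {V : Finset X} (hV : ∀ c x, x ∈ V → τ c x ∈ V)
    (f : X → ℝ) (ρ : X → ℕ)
    (hf : ∀ v ∈ V, f v ≠ 0 → ∃ c0, ∀ c, c ≠ c0 → ρ v < ρ (τ c v)) :
    ∑ v ∈ V, |f v| ≤ ∑ v ∈ V, ∑ c, |f v - f (τ c v)| := by
  have h1 : ∀ c, ∑ v ∈ V, ((if ρ v < ρ (τ c v) then |f v| else 0) -
      (if ρ (τ c v) < ρ v then |f v| else 0)) ≤ ∑ v ∈ V, |f v - f (τ c v)| := by
    intro c
    rw [Finset.sum_sub_distrib,
      ← sum_invol hτ hV c (fun v => if ρ (τ c v) < ρ v then |f v| else 0),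
      ← Finset.sum_sub_distrib]
    refine Finset.sum_le_sum fun v _ => ?_
    simp only [hτ]
    split_ifs
    · exact abs_sub_abs_le_abs_sub _ _
    · simp
  rw [Finset.sum_comm]
  refine le_trans ?_ (Finset.sum_le_sum fun c _ => h1 c)
  rw [Finset.sum_comm]
  refine Finset.sum_le_sum fun v hv => ?_
  by_cases h0 : f v = 0
  · simp [h0]
  obtain ⟨c0, hc0⟩ := hf v hv h0
  have hup : ∀ c, c ≠ c0 → ((if ρ v < ρ (τ c v) then |f v| else 0) -
      (if ρ (τ c v) < ρ v then |f v| else 0)) = |f v| := by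
    intro c hc
    have := hc0 c hc
    rw [if_pos this, if_neg (by omega), sub_zero]
  have hdn : -|f v| ≤ ((if ρ v < ρ (τ c0 v) then |f v| else 0) -
      (if ρ (τ c0 v) < ρ v then |f v| else 0)) := by
    have := abs_nonneg (f v)
    split_ifs <;> linarith
  rw [← Finset.add_sum_erase _ _ (Finset.mem_univ c0),
    Finset.sum_congr rfl (fun c hc => hup c (Finset.ne_of_mem_erase hc))]
  simp only [Finset.sum_const, Finset.card_erase_of_mem (Finset.mem_univ c0), Finset.card_univ,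
    Fintype.card_fin, nsmul_eq_mul]
  norm_num
  linarith

noncomputable def chi (σ : S → Q → Q) (D : ℕ) (t t' : Q) : ℝ := 1 - (dq σ D t t' : ℝ) / D

lemma chi_nonneg (hD : 0 < D) (t t' : Q) : 0 ≤ chi σ D t t' := by
  have h : (dq σ D t t' : ℝ) ≤ D := by exact_mod_cast dq_le t t'
  have hD' : (0 : ℝ) < D := by exact_mod_cast hD
  unfold chi
  rw [sub_nonneg, div_le_one hD']; exact h

lemma chi_le_one (t t' : Q) : chi σ D t t' ≤ 1 := by
  unfold chi
  have : (0 : ℝ) ≤ (dq σ D t t' : ℝ) / D := by positivity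
  linarith

lemma chi_self (t : Q) : chi σ D t t = 1 := by simp [chi, dq_self]

lemma chi_zero (hD : 0 < D) {t t' : Q} (h : ¬ dq σ D t t' < D) : chi σ D t t' = 0 := by
  have h1 : dq σ D t t' = D := le_antisymm (dq_le t t') (not_lt.1 h)
  have hD' : (D : ℝ) ≠ 0 := by exact_mod_cast hD.ne'
  simp [chi, h1, hD']

lemma chi_aux (hD : 0 < D) {a b : ℕ} (h1 : a ≤ b + 1) (h2 : b ≤ a + 1) :
    |(1 - (a : ℝ) / D) - (1 - (b : ℝ) / D)| ≤ 1 / D := by
  have hD' : (0 : ℝ) < D := by exact_mod_cast hD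
  have h1' : (a : ℝ) ≤ b + 1 := by exact_mod_cast h1
  have h2' : (b : ℝ) ≤ a + 1 := by exact_mod_cast h2
  have : (1 - (a : ℝ) / D) - (1 - (b : ℝ) / D) = (b - a) / D := by ring
  rw [this, abs_div, abs_of_pos hD']
  apply div_le_div_of_nonneg_right _ hD'.le
  rw [abs_le]; constructor <;> linarith

lemma chi_left (hD : 0 < D) (hs : ∀ s q, σ s (σ s q) = q) (s : S) (t t' : Q) :
    |chi σ D t t' - chi σ D (σ s t) t'| ≤ 1 / D := by
  refine chi_aux hD ?_ (dq_left hs s t t')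
  have := dq_left (D := D) hs s (σ s t) t'
  rwa [hs] at this

lemma chi_right (hD : 0 < D) (hs : ∀ s q, σ s (σ s q) = q) (s : S) (t t' : Q) :
    |chi σ D t t' - chi σ D t (σ s t')| ≤ 1 / D := by
  refine chi_aux hD ?_ (dq_right s t t')
  have := dq_right (σ := σ) (D := D) s t (σ s t')
  rwa [hs] at this

lemma glue_aux {P P' : Prop} [Decidable P] [Decidable P'] {e e' x x' δ : ℝ} (he : |e| ≤ 1)
    (he' : |e'| ≤ 1) (hx : |x - x'| ≤ δ) (h1 : P → P' → e = e') (h2 : ¬ P → P' → x = 0)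
    (h3 : P → ¬ P' → x' = 0) :
    |(if P then e * x else 0) - (if P' then e' * x' else 0)| ≤ δ := by
  have hδ : 0 ≤ δ := (abs_nonneg _).trans hx
  by_cases hP : P <;> by_cases hP' : P'
  · rw [if_pos hP, if_pos hP', ← h1 hP hP', ← mul_sub, abs_mul]
    exact (mul_le_of_le_one_left (abs_nonneg _) he).trans hx
  · rw [if_pos hP, if_neg hP', sub_zero, abs_mul]
    rw [h3 hP hP', sub_zero] at hx
    exact (mul_le_of_le_one_left (abs_nonneg _) he).trans hx
  · rw [if_neg hP, if_pos hP', zero_sub, abs_neg, abs_mul]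
    rw [h2 hP hP', zero_sub, abs_neg] at hx
    exact (mul_le_of_le_one_left (abs_nonneg _) he').trans hx
  · simpa [hP, hP'] using hδ

theorem Sys.main (H : Sys τ lab σ β D) (hD : 0 < D) {V G A : Finset X} {r L : ℕ}
    (hA : ∀ c x, x ∈ A → τ c x ∈ A) (hV : ∀ c x, x ∈ V → τ c x ∈ V) (hGV : G ⊆ V)
    (hinj : ∀ v ∈ V, ∀ p q : List (Fin 3), Red p → Red q → p.length ≤ r → q.length ≤ r →
      walk τ v p = walk τ v q → p = q)
    (hgood : ∀ v ∈ G, ∀ a ∈ A, ∀ p : List (Fin 3), Red p → p.length = L →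
      labs τ lab v p ≠ labs τ lab a p)
    (hr : L + 2 * D ≤ r) (ν : X → X → ℝ) {e1 e2 K : ℝ} (he1 : 0 ≤ e1) (he2 : 0 ≤ e2) (hK : 0 ≤ K)
    (H1 : ∀ v ∈ V, ∀ c, ∀ h : X → ℝ, (∀ x, x ∉ A → h x = 0) → (∀ x, |h x| ≤ 1) →
      (∀ c x, |h x - h (τ c x)| ≤ 1 / D) →
      |∑ x ∈ A, h x * ν v x - ∑ x ∈ A, h x * ν (τ c v) x| ≤ e1)
    (H2 : ∀ v ∈ V, ∀ h : X → ℝ, (∀ x, x ∉ A → h x = 0) → (∀ x, |h x| ≤ 1 / D) →
      (∀ c x, |h x - h (τ c x)| ≤ 2 / D) → |∑ x ∈ A, h x * ν v x| ≤ e2)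
    (H3 : ∀ v ∈ V, 1 / 2 ≤ ∑ x ∈ A, chi σ D (β v) (β x) * ν v x)
    (H4 : ∀ v ∈ V, ∀ h : X → ℝ, (∀ x, x ∉ A → h x = 0) → (∀ x, |h x| ≤ 1) →
      (∀ c x, |h x - h (τ c x)| ≤ 1 / D) → |∑ x ∈ A, h x * ν v x| ≤ K) :
    (G.card : ℝ) / 2 ≤ 3 * V.card * (e1 + e2) + 12 * ((V.card : ℝ) - G.card) * K := by
  classical
  obtain ⟨cls, hcls, hρ⟩ := H.components (V := (V : Set X)) (G := (G : Set X)) (A := (A : Set X))
    (r := r) (L := L) (fun c x hx => hA c x hx) (fun c x hx => hV c x hx)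
    (fun x hx => hGV hx) hinj hgood hr
  set Z : X × X → Prop := Zs σ β D (G : Set X) (A : Set X) with hZ
  let hv : (Set (X × X) → ℝ) → X → X → ℝ := fun ε v x =>
    if Z (v, x) then ε (cls (v, x)) * chi σ D (β v) (β x) else 0
  let m : Set (X × X) → X → ℝ := fun i v =>
    ∑ x ∈ A, if Z (v, x) ∧ cls (v, x) = i then chi σ D (β v) (β x) * ν v x else 0
  let I : Finset (Set (X × X)) := ((G ×ˢ A).filter Z).image cls
  have hA' : ∀ c x, x ∉ A → τ c x ∉ A := fun c x hx h => hx (by simpa [H.tt] using hA c _ h)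
  have hv0 : ∀ ε v x, x ∉ A → hv ε v x = 0 := fun ε v x hx => if_neg fun h => hx h.2.1
  have hv1 : ∀ ε : Set (X × X) → ℝ, (∀ i, |ε i| ≤ 1) → ∀ v x, |hv ε v x| ≤ 1 := by
    intro ε hε v x
    simp only [hv]
    split_ifs
    · rw [abs_mul, abs_of_nonneg (chi_nonneg hD _ _)]
      exact mul_le_one₀ (hε _) (chi_nonneg hD _ _) (chi_le_one _ _)
    · simp
  have hv2 : ∀ ε : Set (X × X) → ℝ, (∀ i, |ε i| ≤ 1) → ∀ v c x,
      |hv ε v x - hv ε v (τ c x)| ≤ 1 / D := by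
    intro ε hε v c x
    refine glue_aux (hε _) (hε _) ?_ ?_ ?_ ?_
    · rw [H.βτ]; exact chi_right hD H.ss _ _ _
    · intro h1 h2
      rw [hcls _ _ ⟨h1, h2, c, Or.inr rfl⟩]
    · intro h1 h2
      refine chi_zero hD fun h => h1 ⟨h2.1, ?_, h⟩
      by_contra hx
      exact hA' c x hx h2.2.1
    · intro h1 h2
      exact chi_zero hD fun h => h2 ⟨h1.1, hA c x h1.2.1, h⟩
  have hv3 : ∀ ε : Set (X × X) → ℝ, (∀ i, |ε i| ≤ 1) → ∀ v c x, v ∈ G → τ c v ∈ G →
      |hv ε v x - hv ε (τ c v) x| ≤ 1 / D := by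
    intro ε hε v c x hvG hwG
    refine glue_aux (hε _) (hε _) ?_ ?_ ?_ ?_
    · rw [H.βτ]; exact chi_left hD H.ss _ _ _
    · intro h1 h2
      rw [hcls _ _ ⟨h1, h2, c, Or.inl rfl⟩]
    · intro h1 h2
      exact chi_zero hD fun h => h1 ⟨hvG, h2.2.1, h⟩
    · intro h1 h2
      exact chi_zero hD fun h => h2 ⟨hwG, h1.2.1, h⟩
  have hsum : ∀ (ε : Set (X × X) → ℝ) v, ∑ i ∈ I, ε i * m i v = ∑ x ∈ A, hv ε v x * ν v x := by
    intro ε v
    simp only [m, Finset.mul_sum]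
    rw [Finset.sum_comm]
    refine Finset.sum_congr rfl fun x hx => ?_
    by_cases hz : Z (v, x)
    · have hI : cls (v, x) ∈ I :=
        Finset.mem_image.2 ⟨(v, x), Finset.mem_filter.2 ⟨Finset.mem_product.2 ⟨hz.1, hx⟩, hz⟩, rfl⟩
      simp only [hv, hz, true_and, if_true, mul_ite, mul_zero]
      rw [Finset.sum_ite_eq, if_pos hI, mul_assoc]
    · simp [hv, hz]
  have hedge : ∀ v ∈ V, ∀ c, ∑ i ∈ I, |m i v - m i (τ c v)| ≤
      e1 + e2 + (if v ∈ G then 0 else 2 * K) + (if τ c v ∈ G then 0 else 2 * K) := by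
    intro v hvV c
    let ε : Set (X × X) → ℝ := fun i => if 0 ≤ m i v - m i (τ c v) then 1 else -1
    have hε : ∀ i, |ε i| ≤ 1 := by
      intro i; simp only [ε]; split_ifs <;> simp
    have e : ∑ i ∈ I, |m i v - m i (τ c v)| =
        ∑ x ∈ A, hv ε v x * ν v x - ∑ x ∈ A, hv ε (τ c v) x * ν (τ c v) x := by
      rw [← hsum, ← hsum, ← Finset.sum_sub_distrib]
      refine Finset.sum_congr rfl fun i _ => ?_
      simp only [ε]
      split_ifs with h
      · rw [abs_of_nonneg h]; ring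
      · rw [abs_of_neg (not_le.1 h)]; ring
    rw [e]
    have b1 := H4 v hvV (hv ε v) (hv0 ε v) (hv1 ε hε v) (hv2 ε hε v)
    have b2 := H4 _ (hV c v hvV) (hv ε (τ c v)) (hv0 ε _) (hv1 ε hε _) (hv2 ε hε _)
    by_cases hvG : v ∈ G
    · by_cases hwG : τ c v ∈ G
      · have b3 := H1 v hvV c (hv ε v) (hv0 ε v) (hv1 ε hε v) (hv2 ε hε v)
        have b4 := H2 _ (hV c v hvV) (fun x => hv ε v x - hv ε (τ c v) x)
          (fun x hx => by simp [hv0 ε _ x hx]) (fun x => hv3 ε hε v c x hvG hwG) (by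
            intro c' x
            have a1 := hv2 ε hε v c' x
            have a2 := hv2 ε hε (τ c v) c' x
            rw [abs_le] at a1 a2 ⊢
            have : (2 : ℝ) / D = 1 / D + 1 / D := by ring
            constructor <;> linarith [a1.1, a1.2, a2.1, a2.2])
        simp only [sub_mul, Finset.sum_sub_distrib] at b4
        rw [if_pos hvG, if_pos hwG]
        linarith [(abs_le.1 b3).2, (abs_le.1 b4).2]
      · rw [if_pos hvG, if_neg hwG]
        linarith [(abs_le.1 b1).2, (abs_le.1 b2).1]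
    · rw [if_neg hvG]
      have : (0 : ℝ) ≤ if τ c v ∈ G then 0 else 2 * K := by split_ifs <;> linarith
      linarith [(abs_le.1 b1).2, (abs_le.1 b2).1]
  have hiso : ∀ i ∈ I, ∑ v ∈ V, |m i v| ≤ ∑ v ∈ V, ∑ c, |m i v - m i (τ c v)| := by
    intro i hi
    obtain ⟨z0, hz0, rfl⟩ := Finset.mem_image.1 hi
    obtain ⟨ρ, hρ⟩ := hρ z0 (Finset.mem_filter.1 hz0).2
    refine iso H.tt hV _ ρ fun v _ hne => ?_
    obtain ⟨x, _, hx⟩ := Finset.exists_ne_zero_of_sum_ne_zero hne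
    have hx' : Z (v, x) ∧ cls (v, x) = cls z0 := by
      by_contra h; exact hx (if_neg h)
    exact hρ (v, x) hx'.1 hx'.2
  have hlow : (G.card : ℝ) / 2 ≤ ∑ i ∈ I, ∑ v ∈ V, |m i v| := by
    rw [Finset.sum_comm]
    calc (G.card : ℝ) / 2 = ∑ _v ∈ G, (1 / 2 : ℝ) := by simp; ring
      _ ≤ ∑ v ∈ G, ∑ i ∈ I, |m i v| := by
        refine Finset.sum_le_sum fun v hvG => ?_
        have h3 := H3 v (hGV hvG)
        have h4 := hsum (fun _ => 1) v
        have h5 : ∑ x ∈ A, hv (fun _ => 1) v x * ν v x =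
            ∑ x ∈ A, chi σ D (β v) (β x) * ν v x := by
          refine Finset.sum_congr rfl fun x hx => ?_
          simp only [hv]
          split_ifs with hz
          · simp
          · rw [chi_zero hD fun h => hz ⟨hvG, hx, h⟩]
        refine h3.trans ?_
        rw [← h5, ← h4]
        exact Finset.sum_le_sum fun i _ => by rw [one_mul]; exact le_abs_self _
      _ ≤ ∑ v ∈ V, ∑ i ∈ I, |m i v| :=
        Finset.sum_le_sum_of_subset_of_nonneg hGV fun v _ _ =>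
          Finset.sum_nonneg fun i _ => abs_nonneg _
  have hbad : ∑ v ∈ V, (if v ∈ G then (0 : ℝ) else 2 * K) = ((V.card : ℝ) - G.card) * (2 * K) := by
    rw [Finset.sum_ite, Finset.sum_const_zero, zero_add, Finset.sum_const, nsmul_eq_mul]
    congr 1
    have : V.filter (fun v => v ∉ G) = V \ G := by ext; simp
    rw [this, Finset.card_sdiff_of_subset hGV, Nat.cast_sub (Finset.card_le_card hGV)]
  refine hlow.trans ((Finset.sum_le_sum hiso).trans ?_)
  rw [Finset.sum_comm]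
  calc ∑ v ∈ V, ∑ i ∈ I, ∑ c, |m i v - m i (τ c v)|
      = ∑ c, ∑ v ∈ V, ∑ i ∈ I, |m i v - m i (τ c v)| := by
        rw [Finset.sum_comm (s := Finset.univ)]
        exact Finset.sum_congr rfl fun v _ => Finset.sum_comm
    _ ≤ ∑ _c : Fin 3, ((V.card : ℝ) * (e1 + e2) + 4 * ((V.card : ℝ) - G.card) * K) := by
        refine Finset.sum_le_sum fun c _ => ?_
        refine (Finset.sum_le_sum fun v hv => hedge v hv c).trans (le_of_eq ?_)
        rw [Finset.sum_add_distrib, Finset.sum_add_distrib,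
          sum_invol H.tt hV c (fun v => if v ∈ G then (0 : ℝ) else 2 * K), hbad]
        simp; ring
    _ = _ := by simp; ring

end Vale.Agent.P090
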