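import Vale.Agent.P090.Space

/-! Failure of the bounded (compact) approximation property. -/

namespace Vale.Agent.P090

theorem not_compact_bap (lam : ℝ) (hlam : 1 ≤ lam) :
    ∃ C : Set (FreeSpace oM), C.Finite ∧ ∀ T : FreeSpace oM →L[ℝ] FreeSpace oM,
      IsCompactOperator T → ‖T‖ ≤ lam → (∀ u ∈ C, ‖T u - u‖ < 1) → False := by
  classical
  obtain ⟨j, hj⟩ := exists_nat_ge (100 * lam)
  refine ⟨Set.range fun t : QQ (DD j) => dl oM (io j (hatX _ t)), Set.finite_range _, ?_⟩
  intro T hT hTn hfix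
  set R : ℝ := (j : ℝ) + 1 with hR
  have hRl : 100 * lam ≤ R := by linarith
  have hR100 : 100 ≤ R := by linarith
  have hR0 : 0 < R := by linarith
  have hDR : (DD j : ℝ) = R ^ 3 := by simp [DD, hR]
  have hD0 : (0 : ℝ) < DD j := by rw [hDR]; positivity
  have hDpos : 0 < DD j := by exact_mod_cast hD0
  have hRD : R ≤ DD j := by rw [hDR]; nlinarith [mul_pos hR0 hR0]
  obtain ⟨K0, hK0, hK0'⟩ := IsCompactOperator.image_closedBall_subset_compact
    (f := (T : FreeSpace oM →ₗ[ℝ] FreeSpace oM)) hT (DD j)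
  obtain ⟨A1, hA1⟩ := exists_support_compact hK0 (η := 1 / 8) (by norm_num)
  set K : ℝ := 2 / R * (lam * R + 1) + 1 with hK
  have hK1 : 1 ≤ K := by
    have : 0 ≤ 2 / R * (lam * R + 1) := by positivity
    linarith
  obtain ⟨V, G, A, r, L, hA0, hA, hV, hGV, hinj, hgood, hr, hVpos, hbad⟩ :=
    exists_obj (DD j) (A1.preimage (io j) (io_inj j).injOn) (θ := 1 / (100 * K)) (by positivity)
  let Φ : XX (DD j) → Lip0 oM → ℝ := fun v f => (T (dl oM (io j v))).1 f
  have hΦsum : ∀ {κ : ℝ} {h : XX (DD j) → ℝ}, Ok κ h → (∀ x, x ∉ A → h x = 0) → ∀ v,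
      ∑ x ∈ A, h x * Φ v (el (ind x)) = Φ v (el h) := by
    intro κ h H h0 v
    simp only [Φ]
    rw [el_eq_sum H h0, map_sum]
    simp only [map_smul, smul_eq_mul]
  have hTd : ∀ x y : MM, ‖T (dl oM x) - T (dl oM y)‖ ≤ lam * dist x y := by
    intro x y
    rw [← map_sub]
    exact (T.le_opNorm _).trans
      (mul_le_mul hTn (norm_dl_sub _ _ _) (norm_nonneg _) (by linarith))
  have hE1 : ∀ {κ : ℝ} {h : XX (DD j) → ℝ}, Ok κ h → ∀ v c,
      |Φ v (el h) - Φ (tauX _ c v) (el h)| ≤ lam * κ := by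
    intro κ h H v c
    have h1 := abs_pair_le (T (dl oM (io j v)) - T (dl oM (io j (tauX _ c v)))) (el h)
    have h2 : ‖T (dl oM (io j v)) - T (dl oM (io j (tauX _ c v)))‖ ≤ lam :=
      (hTd _ _).trans (by nlinarith [dist_tau j c v])
    exact h1.trans (mul_le_mul h2 H.norm (norm_nonneg _) (by linarith))
  have hE2 : ∀ {κ : ℝ} {h : XX (DD j) → ℝ}, Ok κ h → ∀ v,
      |Φ v (el h) - h (hatX _ (betaX _ v))| ≤ κ * (lam * R + 1) := by
    intro κ h H v
    have h1 := abs_pair_le (T (dl oM (io j v)) - dl oM (io j (hatX _ (betaX _ v)))) (el h)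
    have h2 : ‖T (dl oM (io j v)) - dl oM (io j (hatX _ (betaX _ v)))‖ ≤ lam * R + 1 := by
      have a1 := hTd (io j v) (io j (hatX _ (betaX _ v)))
      have a2 := hfix _ ⟨betaX _ v, rfl⟩
      have a3 := norm_add_le (T (dl oM (io j v)) - T (dl oM (io j (hatX _ (betaX _ v)))))
        (T (dl oM (io j (hatX _ (betaX _ v)))) - dl oM (io j (hatX _ (betaX _ v))))
      rw [sub_add_sub_cancel] at a3
      have a4 : lam * dist (io j v) (io j (hatX _ (betaX _ v))) ≤ lam * R :=
        mul_le_mul_of_nonneg_left (dist_hat j v) (by linarith)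
      simp only at a2
      linarith
    have h3 : (T (dl oM (io j v)) - dl oM (io j (hatX _ (betaX _ v)))).1 (el h) =
        Φ v (el h) - h (hatX _ (betaX _ v)) := by
      change Φ v (el h) - (el h).fn (io j (hatX _ (betaX _ v))) = _
      rw [H.fn, extF_io]
    rw [h3] at h1
    refine h1.trans ?_
    rw [mul_comm κ]
    exact mul_le_mul h2 H.norm (norm_nonneg _) (by positivity)
  have okR : ∀ h : XX (DD j) → ℝ, (∀ x, |h x| ≤ 1) →
      (∀ c x, |h x - h (tauX _ c x)| ≤ 1 / DD j) → Ok (2 / R) h := by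
    intro h h1 h2
    refine ⟨by positivity, fun x => ⟨(h1 x).trans ?_, fun c => (h2 c x).trans ?_, ?_⟩⟩
    · rw [div_mul_eq_mul_div, le_div_iff₀ hR0]; linarith
    · rw [div_le_div_iff₀ hD0 hR0]; linarith
    · rw [← hR, div_mul_cancel₀ _ hR0.ne']
      exact (abs_sub _ _).trans (by linarith [h1 x, h1 (hatX _ (betaX _ x))])
  have main := (sysX (DD j)).main hDpos hA hV hGV hinj hgood hr (fun v x => Φ v (el (ind x)))
    (e1 := lam * (2 / R)) (e2 := 2 / DD j * (lam * R + 1) + 1 / DD j) (K := K)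
    (by positivity) (by positivity) (by linarith) ?_ ?_ ?_ ?_
  · have b1 : lam * (2 / R) ≤ 1 / 50 := by
      rw [← mul_div_assoc, div_le_div_iff₀ hR0 (by norm_num)]; linarith
    have b2 : 2 / DD j * (lam * R + 1) + 1 / DD j ≤ (1 / 50 : ℝ) := by
      rw [div_mul_eq_mul_div, ← add_div, div_le_div_iff₀ hD0 (by norm_num), hDR]
      nlinarith [mul_pos hR0 hR0, mul_le_mul_of_nonneg_right hRl hR0.le,
        mul_le_mul_of_nonneg_right hR100 (mul_pos hR0 hR0).le]
    have hV0 : (0 : ℝ) < V.card := by exact_mod_cast hVpos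
    have b3 : ((V.card : ℝ) - G.card) * K ≤ V.card / 100 := by
      have := mul_le_mul_of_nonneg_right hbad (by linarith : 0 ≤ K)
      refine this.trans (le_of_eq ?_)
      field_simp
    have b4 : (V.card : ℝ) - G.card ≤ V.card / 100 := by
      have h0 : (0 : ℝ) ≤ (V.card : ℝ) - G.card := by
        have : (G.card : ℝ) ≤ V.card := by exact_mod_cast Finset.card_le_card hGV
        linarith
      nlinarith
    have b5 : 3 * (V.card : ℝ) * (lam * (2 / R) + (2 / DD j * (lam * R + 1) + 1 / DD j)) ≤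
        3 * V.card * (1 / 50 + 1 / 50) :=
      mul_le_mul_of_nonneg_left (by linarith) (by positivity)
    linarith
  · intro v _ c h h0 h1 h2
    rw [hΦsum (okR h h1 h2) h0, hΦsum (okR h h1 h2) h0]
    exact hE1 (okR h h1 h2) v c
  · intro v _ h h0 h1 h2
    have hd1 : (1 : ℝ) / DD j ≤ 1 := by rw [div_le_one hD0]; linarith
    have H : Ok (2 / DD j) h := by
      refine ⟨by positivity, fun x => ⟨(h1 x).trans ?_, fun c => h2 c x, ?_⟩⟩
      · rw [div_mul_cancel₀ _ hD0.ne']; linarith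
      · refine (abs_sub _ _).trans ((add_le_add (h1 _) (h1 _)).trans ?_)
        rw [← hR, ← add_div, div_mul_eq_mul_div]
        exact div_le_div_of_nonneg_right (by linarith) hD0.le
    rw [hΦsum H h0]
    have a1 := hE2 H v
    have a2 := h1 (hatX _ (betaX _ v))
    have a3 := abs_add_le (Φ v (el h) - h (hatX _ (betaX _ v))) (h (hatX _ (betaX _ v)))
    rw [sub_add_cancel] at a3
    linarith
  · intro v _
    let χ : XX (DD j) → ℝ := fun x => chi (tauP (DD j)) (DD j) (betaX _ v) (betaX _ x)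
    have hχ : ∀ x, 0 ≤ χ x ∧ χ x ≤ 1 := fun x => ⟨chi_nonneg hDpos _ _, chi_le_one _ _⟩
    have H : Ok (1 / DD j) χ := by
      refine ⟨by positivity, fun x => ⟨?_, fun c => ?_, ?_⟩⟩
      · rw [abs_of_nonneg (hχ x).1, one_div_mul_cancel hD0.ne']; exact (hχ x).2
      · exact chi_right hDpos (tauP_tauP _) _ _ _
      · have : χ (hatX _ (betaX _ x)) = χ x := rfl
        rw [this, sub_self, abs_zero]; positivity
    let χ1 : XX (DD j) → ℝ := fun x => if x ∈ A then χ x else 0
    let χ2 : XX (DD j) → ℝ := fun x => if x ∈ A then 0 else χ x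
    have H1 : Ok 1 χ1 := ok_one fun x => by
      simp only [χ1]; split_ifs; exacts [hχ x, ⟨le_rfl, zero_le_one⟩]
    have H2 : Ok 1 χ2 := ok_one fun x => by
      simp only [χ2]; split_ifs; exacts [⟨le_rfl, zero_le_one⟩, hχ x]
    have e1 : ∑ x ∈ A, χ x * Φ v (el (ind x)) = Φ v (el χ1) := by
      rw [← hΦsum H1 (fun x hx => if_neg hx)]
      exact Finset.sum_congr rfl fun x hx => by simp only [χ1, if_pos hx]
    have e2 : Φ v (el χ) = Φ v (el χ1) + Φ v (el χ2) := by
      simp only [Φ]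
      rw [el_add H1 H2 H (fun x => by simp only [χ1, χ2]; split_ifs <;> simp), map_add]
    have a1 := hE2 H v
    have a2 : χ (hatX _ (betaX _ v)) = 1 := chi_self _
    have a3 : |Φ v (el χ2)| ≤ 2 * (1 / 8) * ‖el χ2‖ := by
      refine hA1 _ (hK0' ⟨dl oM (io j v), ?_, rfl⟩) _ fun a ha => ?_
      · have := norm_dl_sub oM (io j v) oM
        rw [dl_base, sub_zero] at this
        exact mem_closedBall_zero_iff.2 (this.trans (dist_o j v))
      · rw [H2.fn]
        by_cases hm : ∃ x, io j x = a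
        · obtain ⟨y, rfl⟩ := hm
          rw [extF_io]
          exact if_pos (hA0 (Finset.mem_preimage.2 ha))
        · exact extF_of_not _ hm
    have a4 := H2.norm
    have a5 : 1 / (DD j : ℝ) * (lam * R + 1) ≤ 1 / 4 := by
      rw [div_mul_eq_mul_div, div_le_div_iff₀ hD0 (by norm_num), hDR]
      nlinarith [mul_pos hR0 hR0, mul_le_mul_of_nonneg_right hRl hR0.le,
        mul_le_mul_of_nonneg_right hR100 (mul_pos hR0 hR0).le]
    change 1 / 2 ≤ ∑ x ∈ A, χ x * Φ v (el (ind x))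
    rw [e1]
    rw [a2] at a1
    linarith [(abs_le.1 a1).1, (abs_le.1 a3).2]
  · intro v _ h h0 h1 h2
    rw [hΦsum (okR h h1 h2) h0]
    have a1 := hE2 (okR h h1 h2) v
    have a2 := h1 (hatX _ (betaX _ v))
    have a3 := abs_add_le (Φ v (el h) - h (hatX _ (betaX _ v))) (h (hatX _ (betaX _ v)))
    rw [sub_add_cancel] at a3
    linarith

theorem not_hasBAP : ¬ HasBAP (FreeSpace oM) := by
  rintro ⟨lam, hlam, H⟩
  obtain ⟨C, hC, hT⟩ := not_compact_bap lam hlam
  obtain ⟨T, h1, h2, h3⟩ := H C hC.isCompact 1 one_pos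
  exact hT T (compact_of_finiteRank T h1) h2 h3

end Vale.Agent.P090
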