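import Vale.Agent.P090.Iso

/-! The family of labelled graphs and the first moment bound. -/

namespace Vale.Agent.P090

open Finset

abbrev BB : Type := ZMod 2 × ZMod 2
abbrev SS : Type := Fin 3 × BB
abbrev PP (r : ℕ) : Type := Equiv.Perm (Ball (Fin 3) r)
abbrev QQ (D : ℕ) : Type := Equiv.Perm (Ball SS D)
abbrev Obj : Type := Σ r : ℕ, (PP r → BB)
abbrev XX (D : ℕ) : Type := Σ o : Obj, PP o.1 × QQ D

def val {D : ℕ} (x : XX D) : BB := x.1.2 x.2.1
def labX (D : ℕ) (c : Fin 3) (x : XX D) : SS := (c, x.1.2 x.2.1 + x.1.2 (tauP _ c x.2.1))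
def tauX (D : ℕ) (c : Fin 3) (x : XX D) : XX D :=
  ⟨x.1, (tauP _ c x.2.1, tauP D (labX D c x) x.2.2)⟩
def betaX (D : ℕ) (x : XX D) : QQ D := x.2.2
def hatX (D : ℕ) (t : QQ D) : XX D := ⟨⟨0, 0⟩, (1, t)⟩

lemma labX_tauX (D : ℕ) (c : Fin 3) (x : XX D) : labX D c (tauX D c x) = labX D c x := by
  simp [labX, tauX, tauP_tauP, add_comm]

lemma sysX (D : ℕ) : Sys (tauX D) (labX D) (tauP D) (betaX D) D where
  tt c x := by
    have h := labX_tauX D c x
    obtain ⟨o, v, q⟩ := x
    change (⟨o, (tauP _ c (tauP _ c v), tauP D (labX D c (tauX D c ⟨o, v, q⟩))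
      (tauP D (labX D c ⟨o, v, q⟩) q))⟩ : XX D) = _
    rw [h, tauP_tauP, tauP_tauP]
  ss := tauP_tauP D
  labτ := labX_tauX D
  labinj c c' x x' h := congrArg Prod.fst h
  βτ _ _ := rfl
  inj := inj_tauP D

lemma walk_tauX (D : ℕ) (o : Obj) (v : PP o.1) (q : QQ D) (p : List (Fin 3)) :
    ∃ q', walk (tauX D) ⟨o, v, q⟩ p = ⟨o, walk (tauP _) v p, q'⟩ := by
  induction p generalizing v q with
  | nil => exact ⟨q, rfl⟩
  | cons c p ih => exact ih _ _

lemma bb_add_self (x : BB) : x + x = 0 := by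
  revert x; decide

lemma val_of_labs {D : ℕ} {x a : XX D} {p : List (Fin 3)}
    (h : labs (tauX D) (labX D) x p = labs (tauX D) (labX D) a p) (i : ℕ) :
    val (walk (tauX D) x (p.take i)) = val (walk (tauX D) a (p.take i)) + (val x + val a) := by
  induction p generalizing x a i with
  | nil => simp; rw [add_comm (val x), ← add_assoc, bb_add_self, zero_add]
  | cons c p ih =>
    cases i with
    | zero => simp; rw [add_comm (val x), ← add_assoc, bb_add_self, zero_add]
    | succ i =>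
      simp only [labs, List.cons.injEq] at h
      have h1 : val x + val (tauX D c x) = val a + val (tauX D c a) := congrArg Prod.snd h.1
      simp only [List.take_succ_cons, walk_cons]
      rw [ih h.2 i]
      congr 1
      have e1 := bb_add_self (val x)
      have e2 := bb_add_self (val (tauX D c a))
      linear_combination h1 - e1 + e2

lemma card_fibre {P : Type} [Fintype P] [DecidableEq P] {n : ℕ} (e : Fin n → P)
    (he : Function.Injective e) (y : Fin n → BB) :
    (Finset.univ.filter fun b : P → BB => ∀ i, b (e i) = y i).card * 4 ^ n ≤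
      Fintype.card (P → BB) := by
  classical
  have h4 : (Finset.univ : Finset (Fin n → BB)).card = 4 ^ n := by simp
  rw [← h4, ← Finset.card_product, ← Finset.card_univ]
  refine Finset.card_le_card_of_injOn (fun z => z.1 + Function.extend e z.2 0)
    (fun _ _ => Finset.mem_coe.2 (Finset.mem_univ _)) ?_
  rintro ⟨b, z⟩ hb ⟨b', z'⟩ hb' h
  simp only [Finset.coe_product, Set.mem_prod, Finset.mem_coe, Finset.mem_filter] at hb hb'
  have hz : z = z' := by
    funext i
    have := congrFun h (e i)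
    simp only [Pi.add_apply, he.extend_apply, hb.1.2 i, hb'.1.2 i] at this
    exact add_left_cancel this
  subst hz
  simp only [add_left_inj] at h
  rw [h]

noncomputable instance (r : ℕ) : Fintype (PP r) := Fintype.ofFinite _
noncomputable instance (D : ℕ) : Fintype (QQ D) := Fintype.ofFinite _

open Classical in
lemma exists_labelling (D : ℕ) (A : Finset (XX D)) (r L : ℕ) (hL : L ≤ r) :
    ∃ b : PP r → BB, (Finset.univ.filter fun u : PP r => ∃ a ∈ A, ∃ p : List (Fin 3), Red p ∧
      p.length = L ∧ ∃ κ : BB, ∀ i : Fin (L + 1), b (walk (tauP r) u (p.take i)) =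
        val (walk (tauX D) a (p.take i)) + κ).card * 4 ^ (L + 1) ≤
      Fintype.card (PP r) * (A.card * (3 ^ L * 4)) := by
  let T : Finset (XX D × List.Vector (Fin 3) L × BB) := A ×ˢ Finset.univ
  have hT : T.card = A.card * (3 ^ L * 4) := by simp [T, card_vector]
  let E : (PP r → BB) → PP r → XX D × List.Vector (Fin 3) L × BB → Prop := fun b u t =>
    Red t.2.1.1 ∧ ∀ i : Fin (L + 1), b (walk (tauP r) u (t.2.1.1.take i)) =
        val (walk (tauX D) t.1 (t.2.1.1.take i)) + t.2.2
  have h1 : ∀ b : PP r → BB, (Finset.univ.filter fun u : PP r => ∃ a ∈ A, ∃ p : List (Fin 3),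
      Red p ∧ p.length = L ∧ ∃ κ : BB, ∀ i : Fin (L + 1), b (walk (tauP r) u (p.take i)) =
        val (walk (tauX D) a (p.take i)) + κ).card ≤
      ∑ u : PP r, ∑ t ∈ T, if E b u t then 1 else 0 := by
    intro b
    rw [Finset.card_filter]
    refine Finset.sum_le_sum fun u _ => ?_
    split_ifs with h
    · obtain ⟨a, ha, p, hp, hl, κ, hκ⟩ := h
      have hm : (a, (⟨p, hl⟩ : List.Vector (Fin 3) L), κ) ∈ T :=
        Finset.mem_product.2 ⟨ha, Finset.mem_univ _⟩
      refine le_trans ?_ (Finset.single_le_sum (f := fun t => if E b u t then 1 else 0)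
        (fun _ _ => Nat.zero_le _) hm)
      have : E b u (a, (⟨p, hl⟩ : List.Vector (Fin 3) L), κ) := ⟨hp, hκ⟩
      exact (if_pos this).ge
    · exact Nat.zero_le _
  have h2 : ∀ (u : PP r) (t : XX D × List.Vector (Fin 3) L × BB),
      (∑ b : PP r → BB, if E b u t then 1 else 0) * 4 ^ (L + 1) ≤ Fintype.card (PP r → BB) := by
    intro u t
    by_cases hp : Red t.2.1.1
    · have he : Function.Injective fun i : Fin (L + 1) => walk (tauP r) u (t.2.1.1.take i) := by
        intro i j hij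
        have hl : t.2.1.1.length = L := t.2.1.2
        have := inj_tauP r u _ _ (hp.take i) (hp.take j) (by simp; omega) (by simp; omega) hij
        have := congrArg List.length this
        simp only [List.length_take, hl] at this
        apply Fin.ext
        have hi := i.2
        have hj := j.2
        omega
      have := card_fibre _ he fun i : Fin (L + 1) =>
        val (walk (tauX D) t.1 (t.2.1.1.take i)) + t.2.2
      rw [Finset.card_filter] at this
      refine le_trans (le_of_eq ?_) this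
      congr 1
      refine Finset.sum_congr rfl fun b _ => ?_
      simp only [E, hp, true_and]
    · simp [E, hp]
  have h3 : ∑ b : PP r → BB, (∑ u : PP r, ∑ t ∈ T, if E b u t then 1 else 0) * 4 ^ (L + 1) ≤
      ∑ _b : PP r → BB, Fintype.card (PP r) * (A.card * (3 ^ L * 4)) := by
    rw [← Finset.sum_mul, Finset.sum_comm, Finset.sum_mul]
    calc ∑ u : PP r, (∑ b : PP r → BB, ∑ t ∈ T, if E b u t then 1 else 0) * 4 ^ (L + 1)
        ≤ ∑ _u : PP r, T.card * Fintype.card (PP r → BB) := by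
          refine Finset.sum_le_sum fun u _ => ?_
          rw [Finset.sum_comm, Finset.sum_mul]
          exact (Finset.sum_le_sum fun t _ => h2 u t).trans (by simp)
      _ = _ := by
          simp only [Finset.sum_const, Finset.card_univ, smul_eq_mul, hT]
          ring
  obtain ⟨b, _, hb⟩ := Finset.exists_le_of_sum_le Finset.univ_nonempty h3
  exact ⟨b, (Nat.mul_le_mul_right _ (h1 b)).trans hb⟩

theorem exists_obj (D : ℕ) (A0 : Finset (XX D)) {θ : ℝ} (hθ : 0 < θ) :
    ∃ (V G A : Finset (XX D)) (r L : ℕ), A0 ⊆ A ∧ (∀ c x, x ∈ A → tauX D c x ∈ A) ∧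
      (∀ c x, x ∈ V → tauX D c x ∈ V) ∧ G ⊆ V ∧
      (∀ v ∈ V, ∀ p q : List (Fin 3), Red p → Red q → p.length ≤ r → q.length ≤ r →
        walk (tauX D) v p = walk (tauX D) v q → p = q) ∧
      (∀ v ∈ G, ∀ a ∈ A, ∀ p : List (Fin 3), Red p → p.length = L →
        labs (tauX D) (labX D) v p ≠ labs (tauX D) (labX D) a p) ∧
      L + 2 * D ≤ r ∧ 0 < V.card ∧ (V.card : ℝ) - G.card ≤ θ * V.card := by
  classical
  let A : Finset (XX D) := (A0.image Sigma.fst).sigma fun _ => Finset.univ
  have hlim : Filter.Tendsto (fun L : ℕ => (A.card : ℝ) * (3 / 4 : ℝ) ^ L) Filter.atTop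
      (nhds ((A.card : ℝ) * 0)) :=
    (tendsto_pow_atTop_nhds_zero_of_lt_one (by norm_num) (by norm_num)).const_mul _
  rw [mul_zero] at hlim
  obtain ⟨L, hL⟩ := (hlim.eventually (gt_mem_nhds hθ)).exists
  obtain ⟨r, hr⟩ : ∃ r, r = L + 2 * D := ⟨_, rfl⟩
  obtain ⟨b, hb⟩ := exists_labelling D A r L (by omega)
  set bad := (Finset.univ.filter fun u : PP r => ∃ a ∈ A, ∃ p : List (Fin 3), Red p ∧
      p.length = L ∧ ∃ κ : BB, ∀ i : Fin (L + 1), b (walk (tauP r) u (p.take i)) =
        val (walk (tauX D) a (p.take i)) + κ) with hbad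
  let o : Obj := ⟨r, b⟩
  let ι : PP r × QQ D ↪ XX D := ⟨fun z => ⟨o, z⟩, fun z z' h => by simpa using h⟩
  refine ⟨Finset.univ.map ι, ((Finset.univ \ bad) ×ˢ Finset.univ).map ι, A, r, L, ?_, ?_, ?_, ?_,
    ?_, ?_, hr.ge, ?_, ?_⟩
  · intro x hx
    exact Finset.mem_sigma.2 ⟨Finset.mem_image_of_mem _ hx, Finset.mem_univ _⟩
  · intro c x hx
    exact Finset.mem_sigma.2 ⟨(Finset.mem_sigma.1 hx).1, Finset.mem_univ _⟩
  · intro c x hx
    obtain ⟨z, _, rfl⟩ := Finset.mem_map.1 hx
    exact Finset.mem_map.2 ⟨_, Finset.mem_univ _, rfl⟩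
  · exact Finset.map_subset_map.2 (Finset.subset_univ _)
  · intro v hv p q hp hq hpl hql h
    obtain ⟨⟨u, t⟩, _, rfl⟩ := Finset.mem_map.1 hv
    obtain ⟨q1, h1⟩ := walk_tauX D o u t p
    obtain ⟨q2, h2⟩ := walk_tauX D o u t q
    change walk (tauX D) ⟨o, u, t⟩ p = walk (tauX D) ⟨o, u, t⟩ q at h
    rw [h1, h2] at h
    simp only [Sigma.mk.injEq, heq_eq_eq, true_and, Prod.mk.injEq] at h
    exact inj_tauP r u p q hp hq hpl hql h.1
  · intro v hv a ha p hp hl h
    obtain ⟨⟨u, t⟩, hu, rfl⟩ := Finset.mem_map.1 hv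
    have hu' : u ∉ bad := (Finset.mem_sdiff.1 (Finset.mem_product.1 hu).1).2
    refine hu' (Finset.mem_filter.2 ⟨Finset.mem_univ _, a, ha, p, hp, hl,
      val (ι (u, t)) + val a, fun i => ?_⟩)
    rw [← val_of_labs h i]
    obtain ⟨q1, h1⟩ := walk_tauX D o u t (p.take i)
    change _ = val (walk (tauX D) ⟨o, u, t⟩ (p.take i))
    rw [h1]; rfl
  · rw [Finset.card_map]; exact Finset.card_pos.2 Finset.univ_nonempty
  · rw [Finset.card_map, Finset.card_map, Finset.card_product, Finset.card_univ, Finset.card_univ,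
      Finset.card_sdiff_of_subset (Finset.subset_univ _), Finset.card_univ, Fintype.card_prod,
      Nat.cast_mul, Nat.cast_mul, Nat.cast_sub (Finset.card_le_univ _)]
    have hb' : (bad.card : ℝ) * 4 ^ (L + 1) ≤
        Fintype.card (PP r) * (A.card * (3 ^ L * 4)) := by exact_mod_cast hb
    have h4 : (0 : ℝ) < 4 ^ (L + 1) := by positivity
    have hb2 : (bad.card : ℝ) ≤ Fintype.card (PP r) * (A.card * (3 / 4 : ℝ) ^ L) := by
      rw [← le_div_iff₀ h4] at hb'
      refine hb'.trans (le_of_eq ?_)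
      rw [div_pow]; field_simp; ring
    have hb3 : (bad.card : ℝ) ≤ Fintype.card (PP r) * θ :=
      hb2.trans (mul_le_mul_of_nonneg_left hL.le (Nat.cast_nonneg _))
    have hq : (0 : ℝ) ≤ Fintype.card (QQ D) := Nat.cast_nonneg _
    nlinarith [mul_le_mul_of_nonneg_right hb3 hq]

end Vale.Agent.P090
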