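import Vale.Agent.P090.Obj
import Vale.Agent.P090.Free

/-! The uniformly discrete metric space. -/

namespace Vale.Agent.P090

def DD (j : ℕ) : ℕ := (j + 1) ^ 3

def MM : Type := Option (Σ j : ℕ, XX (DD j))

instance : Countable MM := by
  unfold MM
  infer_instance

def oM : MM := none

def io (j : ℕ) (x : XX (DD j)) : MM := some ⟨j, x⟩

lemma io_inj (j : ℕ) : Function.Injective (io j) := by
  intro x y h
  have := Option.some.inj h
  simpa using this

lemma MM.cases (m : MM) : m = oM ∨ ∃ j x, m = io j x := by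
  cases m with
  | none => exact Or.inl rfl
  | some z => exact Or.inr ⟨z.1, z.2, rfl⟩

lemma io_ne (j : ℕ) (x : XX (DD j)) : io j x ≠ oM := by
  intro h; cases h

lemma io_ne' {i j : ℕ} (hij : i ≠ j) (x : XX (DD i)) (y : XX (DD j)) : io i x ≠ io j y := by
  intro h
  exact hij (congrArg Sigma.fst (Option.some.inj h))

def Adm (h : MM → ℝ) : Prop :=
  h oM = 0 ∧ ∀ (j : ℕ) (x : XX (DD j)), |h (io j x)| ≤ DD j ∧
    (∀ c, |h (io j x) - h (io j (tauX _ c x))| ≤ 1) ∧
    |h (io j x) - h (io j (hatX _ (betaX _ x)))| ≤ j + 1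

instance : Nonempty {h : MM → ℝ // Adm h} :=
  ⟨⟨0, rfl, fun j x => ⟨by simp, fun c => by simp, by simp; positivity⟩⟩⟩

lemma adm_bdd (m : MM) : ∃ B : ℝ, ∀ h, Adm h → |h m| ≤ B := by
  rcases m.cases with rfl | ⟨j, x, rfl⟩
  · exact ⟨0, fun h hh => by simp [hh.1]⟩
  · exact ⟨DD j, fun h hh => (hh.2 j x).1⟩

noncomputable def dM (x y : MM) : ℝ := ⨆ h : {h : MM → ℝ // Adm h}, |h.1 x - h.1 y|

lemma le_dM {h : MM → ℝ} (hh : Adm h) (x y : MM) : |h x - h y| ≤ dM x y := by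
  obtain ⟨B, hB⟩ := adm_bdd x
  obtain ⟨B', hB'⟩ := adm_bdd y
  refine le_ciSup (f := fun h : {h : MM → ℝ // Adm h} => |h.1 x - h.1 y|) ⟨B + B', ?_⟩ ⟨h, hh⟩
  rintro _ ⟨g, rfl⟩
  exact (abs_sub _ _).trans (add_le_add (hB _ g.2) (hB' _ g.2))

lemma dM_le {x y : MM} {B : ℝ} (h : ∀ g, Adm g → |g x - g y| ≤ B) : dM x y ≤ B :=
  ciSup_le fun g => h g.1 g.2

lemma one_le_DD (j : ℕ) : (1 : ℝ) ≤ DD j := by
  have : 1 ≤ DD j := Nat.one_le_pow _ _ (Nat.succ_pos j)
  exact_mod_cast this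

open Classical in
lemma adm_single {m : MM} (hm : m ≠ oM) : Adm (fun z => if z = m then 1 else 0) := by
  refine ⟨if_neg hm.symm, fun j x => ⟨?_, fun c => ?_, ?_⟩⟩
  · have := one_le_DD j
    beta_reduce
    split_ifs
    · rwa [abs_one]
    · rw [abs_zero]; linarith
  · beta_reduce
    split_ifs <;> simp
  · have : (0 : ℝ) ≤ j := Nat.cast_nonneg j
    beta_reduce
    split_ifs <;> simp <;> linarith

lemma one_le_dM {x y : MM} (h : x ≠ y) : 1 ≤ dM x y := by
  by_cases hx : x = oM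
  · have := le_dM (adm_single (m := y) (by rw [← hx]; exact h.symm)) x y
    simpa [h] using this
  · have := le_dM (adm_single hx) x y
    simpa [h.symm] using this

noncomputable instance : MetricSpace MM where
  dist := dM
  dist_self x := by simp [dM]
  dist_comm x y := by simp [dM, abs_sub_comm]
  dist_triangle x y z := dM_le fun g hg =>
    (abs_sub_le _ _ _).trans (add_le_add (le_dM hg x y) (le_dM hg y z))
  eq_of_dist_eq_zero := by
    intro x y h
    by_contra hne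
    have := one_le_dM hne
    linarith

lemma dist_def (x y : MM) : dist x y = dM x y := rfl

lemma dist_tau (j : ℕ) (c : Fin 3) (x : XX (DD j)) : dist (io j x) (io j (tauX _ c x)) ≤ 1 :=
  dM_le fun _ hg => (hg.2 j x).2.1 c

lemma dist_hat (j : ℕ) (x : XX (DD j)) : dist (io j x) (io j (hatX _ (betaX _ x))) ≤ j + 1 :=
  dM_le fun _ hg => (hg.2 j x).2.2

lemma dist_o (j : ℕ) (x : XX (DD j)) : dist (io j x) oM ≤ DD j :=
  dM_le fun _ hg => by rw [hg.1, sub_zero]; exact (hg.2 j x).1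

variable {j : ℕ}

noncomputable def extF (h : XX (DD j) → ℝ) : MM → ℝ := Function.extend (io j) h 0

lemma extF_io (h : XX (DD j) → ℝ) (x : XX (DD j)) : extF h (io j x) = h x :=
  (io_inj j).extend_apply _ _ _

lemma extF_of_not (h : XX (DD j) → ℝ) {m : MM} (hm : ¬ ∃ x, io j x = m) : extF h m = 0 :=
  Function.extend_apply' _ _ _ hm

def Ok (κ : ℝ) (h : XX (DD j) → ℝ) : Prop :=
  0 < κ ∧ ∀ x, |h x| ≤ κ * DD j ∧ (∀ c, |h x - h (tauX _ c x)| ≤ κ) ∧
    |h x - h (hatX _ (betaX _ x))| ≤ κ * (j + 1)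

lemma Ok.lip {κ : ℝ} {h : XX (DD j) → ℝ} (H : Ok κ h) (x y : MM) :
    |extF h x - extF h y| ≤ κ * dist x y := by
  obtain ⟨hκ, H⟩ := H
  have key : ∀ a b : ℝ, |a| ≤ κ * b → |a / κ| ≤ b := by
    intro a b hab
    rw [abs_div, abs_of_pos hκ, div_le_iff₀ hκ, mul_comm]; exact hab
  have hadm : Adm fun m => extF h m / κ := by
    refine ⟨?_, fun i x => ?_⟩
    · simp only
      rw [extF_of_not h (by rintro ⟨x, hx⟩; exact io_ne j x hx), zero_div]
    · by_cases hij : i = j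
      · subst hij
        simp only [extF_io, ← sub_div]
        exact ⟨key _ _ (H x).1, fun c => key _ _ (by rw [mul_one]; exact (H x).2.1 c),
          key _ _ (H x).2.2⟩
      · have h0 : ∀ y : XX (DD i), extF h (io i y) = 0 := fun y =>
          extF_of_not h (by rintro ⟨z, hz⟩; exact io_ne' hij y z hz.symm)
        simp only [h0]
        refine ⟨by simp, fun c => by simp, by simp; positivity⟩
  have := le_dM hadm x y
  rw [← sub_div, abs_div, abs_of_pos hκ, div_le_iff₀ hκ, mul_comm] at this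
  exact this

lemma Ok.mem {κ : ℝ} {h : XX (DD j) → ℝ} (H : Ok κ h) : extF h ∈ lipSub oM :=
  ⟨⟨κ, H.1.le, H.lip⟩, extF_of_not h (by rintro ⟨x, hx⟩; exact io_ne j x hx)⟩

open Classical in
noncomputable def el (h : XX (DD j) → ℝ) : Lip0 oM :=
  if hh : extF h ∈ lipSub oM then (⟨extF h, hh⟩ : lipSub oM) else 0

lemma Ok.fn {κ : ℝ} {h : XX (DD j) → ℝ} (H : Ok κ h) : (el h).fn = extF h := by
  have e : el h = (⟨extF h, H.mem⟩ : lipSub oM) := dif_pos H.mem
  rw [e]
  rfl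

lemma Ok.norm {κ : ℝ} {h : XX (DD j) → ℝ} (H : Ok κ h) : ‖el h‖ ≤ κ := by
  rw [Lip0.norm_def, H.fn]
  exact lipConst_le H.1.le H.lip

lemma ok_one {h : XX (DD j) → ℝ} (H : ∀ x, 0 ≤ h x ∧ h x ≤ 1) : Ok 1 h := by
  have key : ∀ x y, |h x - h y| ≤ 1 := fun x y => by
    rw [abs_le]; constructor <;> linarith [H x, H y]
  refine ⟨one_pos, fun x => ⟨?_, fun c => key _ _, (key _ _).trans ?_⟩⟩
  · rw [abs_of_nonneg (H x).1, one_mul]; exact (H x).2.trans (one_le_DD j)
  · have : (0 : ℝ) ≤ j := Nat.cast_nonneg j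
    linarith

open Classical in
noncomputable def ind (x : XX (DD j)) : XX (DD j) → ℝ := fun y => if y = x then 1 else 0

lemma ok_ind (x : XX (DD j)) : Ok 1 (ind x) :=
  ok_one fun y => by unfold ind; split_ifs <;> simp

lemma el_eq_sum {κ : ℝ} {h : XX (DD j) → ℝ} (H : Ok κ h) {A : Finset (XX (DD j))}
    (hA : ∀ x, x ∉ A → h x = 0) : el h = ∑ x ∈ A, h x • el (ind x) := by
  classical
  refine Lip0.ext' fun m => ?_
  rw [map_sum]
  simp only [map_smul, delta_apply, H.fn, (ok_ind _).fn, smul_eq_mul]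
  by_cases hm : ∃ x, io j x = m
  · obtain ⟨y, rfl⟩ := hm
    simp only [extF_io, ind, mul_ite, mul_one, mul_zero]
    rw [Finset.sum_ite_eq]
    split_ifs with hy
    · rfl
    · exact hA y hy
  · simp [extF_of_not _ hm]

lemma el_add {κ1 κ2 κ3 : ℝ} {h1 h2 h3 : XX (DD j) → ℝ} (H1 : Ok κ1 h1) (H2 : Ok κ2 h2)
    (H3 : Ok κ3 h3) (e : ∀ x, h3 x = h1 x + h2 x) : el h3 = el h1 + el h2 := by
  refine Lip0.ext' fun m => ?_
  rw [map_add]
  simp only [delta_apply, H1.fn, H2.fn, H3.fn]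
  by_cases hm : ∃ x, io j x = m
  · obtain ⟨y, rfl⟩ := hm
    simp only [extF_io, e]
  · simp [extF_of_not _ hm]

end Vale.Agent.P090
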