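import Mathlib

/-! Reduced words in a free product of groups of order two, and finite models of large girth. -/

namespace Vale.Agent.P090

variable {S : Type*}

def Red (l : List S) : Prop := l.IsChain (· ≠ ·)

lemma red_nil : Red ([] : List S) := List.IsChain.nil

lemma red_cons {s : S} {l : List S} : Red (s :: l) ↔ (l.head? ≠ some s) ∧ Red l := by
  cases l with
  | nil => simp [Red]
  | cons t l => simp [Red, List.isChain_cons_cons, eq_comm]

lemma Red.take {l : List S} (h : Red l) (n : ℕ) : Red (l.take n) := List.IsChain.take h n

lemma Red.drop {l : List S} (h : Red l) (n : ℕ) : Red (l.drop n) := List.IsChain.drop h n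

def walk {V : Type*} (τ : S → V → V) (v : V) (w : List S) : V := w.foldl (fun x s => τ s x) v

@[simp] lemma walk_nil {V : Type*} (τ : S → V → V) (v : V) : walk τ v [] = v := rfl

@[simp] lemma walk_cons {V : Type*} (τ : S → V → V) (v : V) (s : S) (w : List S) :
    walk τ v (s :: w) = walk τ (τ s v) w := rfl

lemma walk_append {V : Type*} (τ : S → V → V) (v : V) (w u : List S) :
    walk τ v (w ++ u) = walk τ (walk τ v w) u := by
  simp [walk, List.foldl_append]

/-- reduced words of length at most `r` act injectively at every point -/
def Inj {V : Type*} (τ : S → V → V) (r : ℕ) : Prop :=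
  ∀ (v : V) (p q : List S), Red p → Red q → p.length ≤ r → q.length ≤ r →
    walk τ v p = walk τ v q → p = q

variable [DecidableEq S]

def push (s : S) : List S → List S
  | [] => [s]
  | t :: l => if s = t then l else s :: t :: l

lemma push_of_head {s : S} {l : List S} (h : l.head? ≠ some s) : push s l = s :: l := by
  cases l with
  | nil => rfl
  | cons t l =>
    have : s ≠ t := by rintro rfl; simp at h
    simp [push, this]

@[simp] lemma push_self (s : S) (l : List S) : push s (s :: l) = l := by simp [push]

lemma push_cases (s : S) (l : List S) :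
    (l.head? ≠ some s ∧ push s l = s :: l) ∨ (l = s :: push s l) := by
  by_cases h : l.head? = some s
  · right
    cases l with
    | nil => simp at h
    | cons t l =>
      obtain rfl : t = s := by simpa using h
      simp
  · exact Or.inl ⟨h, push_of_head h⟩

lemma Red.push {l : List S} (h : Red l) (s : S) : Red (push s l) := by
  rcases push_cases s l with ⟨h1, h2⟩ | h1
  · rw [h2]; exact red_cons.2 ⟨h1, h⟩
  · rw [h1] at h; exact (red_cons.1 h).2

lemma push_push {l : List S} (h : Red l) (s : S) : push s (push s l) = l := by
  rcases push_cases s l with ⟨_, h2⟩ | h1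
  · rw [h2]; simp
  · have h' := h
    rw [h1] at h'
    rw [push_of_head (red_cons.1 h').1]
    exact h1.symm

lemma length_push_le (s : S) (l : List S) : (push s l).length ≤ l.length + 1 := by
  rcases push_cases s l with ⟨_, h2⟩ | h1
  · rw [h2]; simp
  · have := congrArg List.length h1
    simp at this; omega

lemma walk_push {V : Type*} {τ : S → V → V} (hτ : ∀ s v, τ s (τ s v) = v) (v : V) (s : S)
    (l : List S) : walk τ v (push s l) = walk τ (τ s v) l := by
  rcases push_cases s l with ⟨_, h2⟩ | h1
  · rw [h2]; rfl
  · conv_rhs => rw [h1]
    simp [hτ]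

def act (w l : List S) : List S := w.foldr push l

@[simp] lemma act_nil (l : List S) : act [] l = l := rfl

@[simp] lemma act_cons (s : S) (w l : List S) : act (s :: w) l = push s (act w l) := rfl

lemma act_append (w u l : List S) : act (w ++ u) l = act w (act u l) := by
  simp [act, List.foldr_append]

lemma Red.act {l : List S} (h : Red l) (w : List S) : Red (act w l) := by
  induction w with
  | nil => exact h
  | cons s w ih => exact ih.push s

lemma length_act_le (w l : List S) : (act w l).length ≤ w.length + l.length := by
  induction w with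
  | nil => simp
  | cons s w ih =>
    have := length_push_le s (act w l)
    simp only [act_cons, List.length_cons]; omega

lemma act_push {m : List S} (hm : Red m) (s : S) (l : List S) :
    act (push s l) m = push s (act l m) := by
  rcases push_cases s l with ⟨_, h2⟩ | h1
  · rw [h2]; rfl
  · conv_rhs => rw [h1]
    rw [act_cons, push_push (hm.act _)]

lemma act_act_nil {m : List S} (hm : Red m) (w : List S) : act (act w []) m = act w m := by
  induction w with
  | nil => rfl
  | cons s w ih => rw [act_cons, act_push hm, ih, act_cons]

lemma walk_act {V : Type*} {τ : S → V → V} (hτ : ∀ s v, τ s (τ s v) = v) (w : List S) (v : V) :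
    walk τ v (act w []) = walk τ v w := by
  induction w generalizing v with
  | nil => rfl
  | cons s w ih => rw [act_cons, walk_push hτ, ih, walk_cons]

lemma act_left (g u : List S) :
    ∃ (a : List S) (k : ℕ), act g u = a ++ u.drop k ∧ a.length ≤ g.length := by
  induction g with
  | nil => exact ⟨[], 0, by simp, le_rfl⟩
  | cons s g ih =>
    obtain ⟨a, k, h, ha⟩ := ih
    rw [act_cons, h]
    rcases push_cases s (a ++ u.drop k) with ⟨_, h2⟩ | h1
    · exact ⟨s :: a, k, by rw [h2]; rfl, by simpa using ha⟩
    · cases a with
      | nil =>
        refine ⟨[], k + 1, ?_, by simp⟩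
        simp only [List.nil_append] at h1 ⊢
        rw [← List.drop_drop, h1]
        simp
      | cons t a =>
        refine ⟨a, k, ?_, by simp at ha ⊢; omega⟩
        simp only [List.cons_append, List.cons.injEq] at h1
        exact h1.2.symm

lemma act_right {w : List S} (hw : Red w) (g : List S) :
    ∃ (i : ℕ) (b : List S), act w g = w.take i ++ b ∧ i ≤ w.length ∧
      w.length + b.length = i + g.length := by
  induction w with
  | nil => exact ⟨0, g, by simp, le_rfl, by simp⟩
  | cons s w ih =>
    obtain ⟨h1, h2⟩ := red_cons.1 hw
    obtain ⟨i, b, h, hi, hb⟩ := ih h2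
    rw [act_cons, h]
    rcases push_cases s (w.take i ++ b) with ⟨_, h4⟩ | h3
    · exact ⟨i + 1, b, by rw [h4]; rfl, by simpa using hi, by simp; omega⟩
    · cases i with
      | zero =>
        simp only [List.take_zero, List.nil_append] at h3 ⊢
        refine ⟨0, push s b, by simp, by simp, ?_⟩
        have := congrArg List.length h3
        simp at this ⊢; omega
      | succ i =>
        exfalso
        cases w with
        | nil => simp at hi
        | cons t w =>
          simp only [List.take_succ_cons, List.cons_append, List.cons.injEq] at h3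
          exact h1 (by simp [h3.1])

/-- fellow travelling geodesics in a tree overlap -/
lemma overlap {w u g g0 : List S} {D L : ℕ} (hw : Red w) (hg : g.length ≤ D) (hg0 : g0.length ≤ D)
    (hlen : L + 2 * D ≤ w.length) (h : act g u = act w g0) :
    ∃ k, (w.drop D).take L = (u.drop k).take L := by
  obtain ⟨a, k, h1, ha⟩ := act_left g u
  obtain ⟨i, b, h2, hi, hb⟩ := act_right hw g0
  refine ⟨k + (D - a.length), ?_⟩
  have e : a ++ u.drop k = w.take i ++ b := by rw [← h1, ← h2, h]
  have e1 : (a ++ u.drop k).drop D = u.drop (k + (D - a.length)) := by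
    rw [List.drop_append, List.drop_eq_nil_of_le (by omega), List.nil_append, List.drop_drop]
  have e2 : ((w.take i ++ b).drop D).take L = (w.drop D).take L := by
    rw [List.drop_append, List.take_append, List.drop_take, List.take_take]
    have : min L (i - D) = L := by omega
    rw [this]
    have : L - (List.take (i - D) (List.drop D w)).length = 0 := by
      simp; omega
    rw [this]; simp
  rw [← e1, e, e2]

/-! ### finite models -/

abbrev Ball (S : Type*) (r : ℕ) : Type _ := {l : List S // Red l ∧ l.length ≤ r}

instance [Finite S] (r : ℕ) : Finite (Ball S r) := by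
  have : (({l : List S | l.length ≤ r}) : Set (List S)).Finite := List.finite_length_le S r
  have h2 : ({l : List S | Red l ∧ l.length ≤ r} : Set (List S)).Finite :=
    this.subset fun l hl => hl.2
  exact h2.to_subtype

def flipB (r : ℕ) (s : S) (l : Ball S r) : Ball S r :=
  if h : (push s l.1).length ≤ r then ⟨push s l.1, l.2.1.push s, h⟩ else l

lemma flipB_val (r : ℕ) (s : S) (l : Ball S r) (h : (push s l.1).length ≤ r) :
    (flipB r s l).1 = push s l.1 := by
  unfold flipB
  rw [dif_pos h]

lemma flipB_flipB (r : ℕ) (s : S) (l : Ball S r) : flipB r s (flipB r s l) = l := by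
  by_cases h : (push s l.1).length ≤ r
  · apply Subtype.ext
    rw [flipB_val, flipB_val r s l h, push_push l.2.1]
    rw [flipB_val r s l h, push_push l.2.1]
    exact l.2.2
  · have e : flipB r s l = l := by
      unfold flipB
      rw [dif_neg h]
    rw [e, e]

def flipP (r : ℕ) (s : S) : Equiv.Perm (Ball S r) :=
  ⟨flipB r s, flipB r s, flipB_flipB r s, flipB_flipB r s⟩

def tauP (r : ℕ) (s : S) (q : Equiv.Perm (Ball S r)) : Equiv.Perm (Ball S r) := q * flipP r s

lemma tauP_tauP (r : ℕ) (s : S) (q : Equiv.Perm (Ball S r)) : tauP r s (tauP r s q) = q := by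
  ext l
  simp [tauP, flipP, flipB_flipB]

lemma walk_tauP (r : ℕ) (q : Equiv.Perm (Ball S r)) (w : List S) :
    walk (tauP r) q w = q * (w.map (flipP r)).prod := by
  induction w generalizing q with
  | nil => simp
  | cons s w ih => rw [walk_cons, ih]; simp [tauP, mul_assoc]

def rootB (S : Type*) (r : ℕ) : Ball S r := ⟨[], red_nil, Nat.zero_le r⟩

lemma prod_flip_root (r : ℕ) (w : List S) (hw : Red w) (hl : w.length ≤ r) :
    ((w.map (flipP r)).prod (rootB S r)).1 = w := by
  induction w with
  | nil => rfl
  | cons s w ih =>
    obtain ⟨h1, h2⟩ := red_cons.1 hw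
    have hl' : w.length ≤ r := by simp at hl; omega
    have := ih h2 hl'
    rw [List.map_cons, List.prod_cons, Equiv.Perm.mul_apply]
    change (flipB r s _).1 = _
    rw [flipB_val, this, push_of_head h1]
    rw [this, push_of_head h1]; exact hl

lemma inj_tauP (r : ℕ) : Inj (tauP (S := S) r) r := by
  intro v p q hp hq hpl hql h
  rw [walk_tauP, walk_tauP] at h
  have h2 := mul_left_cancel h
  rw [← prod_flip_root r p hp hpl, ← prod_flip_root r q hq hql, h2]

end Vale.Agent.P090
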